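import Vale.Agent.P245.Poly.Defs
import Vale.Agent.P245.Tilt
import Vale.Agent.P245.SLC.Basic
import Vale.Agent.P245.SLC.Approx
import Vale.Agent.P245.Renyi

/-!
# P245, module E: basic facts on tilts used by the coupling
-/

namespace Vale.Agent.P245.Poly.Cpl

open MeasureTheory ProbabilityTheory Filter Topology
open scoped RealInnerProductSpace ENNReal NNReal

variable {n : ℕ} {m : Measure (Rn n)} [IsProbabilityMeasure m]

/-- A tilt of a boundedly supported probability measure is one. -/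
lemma tilt_prob (hb : BddSupp m) (t : ℝ) (th : Rn n) : IsProbabilityMeasure (tilt m t th) := by
  have h := M2.integrable_num hb (M2.Good.const (μ := m) 1) t th
  simp only [one_mul] at h
  exact isProbabilityMeasure_tilted h

omit [IsProbabilityMeasure m] in
lemma tilt_bdd (hb : BddSupp m) (t : ℝ) (th : Rn n) : BddSupp (tilt m t th) := by
  obtain ⟨R, hR⟩ := hb
  exact ⟨R, (tilted_absolutelyContinuous m _).ae_le hR⟩

lemma tilt_slc (hb : BddSupp m) (hs : IsSLC 0 m) (t : ℝ) (th : Rn n) : IsSLC t (tilt m t th) := by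
  simpa using (tiltSLC n 0 t th m inferInstance hb hs).2.2.1

omit [IsProbabilityMeasure m] in
/-- Tilting twice is tilting once. -/
lemma tilt_tilt (hb : BddSupp m) [IsProbabilityMeasure m] (t h : ℝ) (th e : Rn n)
    (f : Rn n → ℝ) : ex (tilt m t th) h e f = ex m (t + h) (th + e) f := by
  have hz := M2.zt_pos hb t th
  have key : ∀ g : Rn n → ℝ, num (tilt m t th) h e g = num m (t + h) (th + e) g / zt m t th := by
    intro g
    unfold num
    rw [Imp.integral_tilt]
    unfold ex num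
    congr 1
    refine integral_congr_ae (ae_of_all _ fun x => ?_)
    simp only []
    rw [mul_assoc, ← Real.exp_add]
    congr 2
    simp only [texp, inner_add_left]
    ring
  simp only [ex, zt]
  rw [key, key]
  exact div_div_div_cancel_right₀ hz.ne' _ _

lemma abs_ex_le {h : Rn n → ℝ} {C : ℝ} (hb : BddSupp m) (hC : ∀ x, |h x| ≤ C) (t : ℝ) (th : Rn n) :
    |ex m t th h| ≤ C :=
  M2.abs_ex_le hb (Eventually.of_forall hC) t th

lemma measurable_ex {H : Rn n → Rn n → ℝ} (hm : Measurable (Function.uncurry H)) (t : ℝ) :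
    Measurable fun th => ex m t th (H th) :=
  (M2.measurable_num t hm).div (M2.measurable_num t
    (by fun_prop : Measurable (Function.uncurry fun _ _ : Rn n => (1 : ℝ))))

/-- Smoothing of a bounded measurable function along one step. -/
noncomputable def sm1 (h : ℝ) (F : Rn n → ℝ) (th x : Rn n) : ℝ :=
  ∫ z, F (th + h • x + Real.sqrt h • z) ∂gam n

omit [IsProbabilityMeasure m] in
lemma measurable_sm1 {F : Rn n → ℝ} (hF : Measurable F) (h : ℝ) :
    Measurable (Function.uncurry (sm1 h F)) := by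
  have hu : Measurable (Function.uncurry fun (q : Rn n × Rn n) (z : Rn n) =>
      F (q.1 + h • q.2 + Real.sqrt h • z)) := hF.comp (by fun_prop)
  exact hu.stronglyMeasurable.integral_prod_right.measurable

omit [IsProbabilityMeasure m] in
lemma abs_sm1 {F : Rn n → ℝ} {C : ℝ} (hC : ∀ x, |F x| ≤ C) (h : ℝ) (th x : Rn n) :
    |sm1 h F th x| ≤ C := by
  have := norm_integral_le_of_norm_le_const (μ := gam n) (C := C)
    (f := fun z => F (th + h • x + Real.sqrt h • z))
    (ae_of_all _ fun z => by rw [Real.norm_eq_abs]; exact hC _)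
  simpa [sm1, Real.norm_eq_abs] using this

omit [IsProbabilityMeasure m] in
lemma step_eq (t h : ℝ) (th : Rn n) (F : Rn n → ℝ) : step m t h th F = ex m t th (sm1 h F th) := rfl

lemma measurable_step {F : Rn n → ℝ} (hF : Measurable F) (t h : ℝ) :
    Measurable fun th => step m t h th F := by
  simp only [step_eq]
  exact measurable_ex (measurable_sm1 hF h) t

lemma abs_step (hb : BddSupp m) {F : Rn n → ℝ} {C : ℝ} (hC : ∀ x, |F x| ≤ C) (t h : ℝ)
    (th : Rn n) : |step m t h th F| ≤ C :=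
  abs_ex_le hb (fun x => abs_sm1 hC h th x) t th

/-- The vector of tilted means. -/
noncomputable def mean (m : Measure (Rn n)) (t : ℝ) (th : Rn n) : Rn n :=
  WithLp.toLp 2 fun i => ex m t th fun x => x i

lemma ex_inner (hb : BddSupp m) (t : ℝ) (th v : Rn n) :
    ex m t th (fun x => ⟪v, x⟫) = ⟪v, mean m t th⟫ := by
  have e : (fun x : Rn n => ⟪v, x⟫) = fun x => ∑ i, v i * x i := by
    funext x
    rw [PiLp.inner_apply]
    simp [mul_comm]
  rw [e, M2.ex_sum hb _ (fun i => (M2.Good.const (μ := m) (v i)).mul (M2.Good.coord hb i)),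
    PiLp.inner_apply]
  refine Finset.sum_congr rfl fun i _ => ?_
  rw [M2.ex_const_mul]
  simp [mean, mul_comm]

lemma measurable_mean (hb : BddSupp m) (t : ℝ) : Measurable fun th => mean m t th := by
  have _ := hb
  refine (WithLp.measurable_toLp 2 _).comp (measurable_pi_lambda _ fun i => ?_)
  exact measurable_ex (H := fun _ x => x i) (by fun_prop) t

/-- Moment generating function of a linear form under a strongly log-concave measure. -/
lemma lin_mgf (hb : BddSupp m) {t : ℝ} (ht : 0 < t) (hs : IsSLC t m) (v : Rn n) :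
    ∫ x, Real.exp (⟪v, x⟫ - ∫ y, ⟪v, y⟫ ∂m) ∂m ≤ Real.exp (‖v‖ ^ 2 / t) := by
  rcases eq_or_ne v 0 with rfl | hv
  · simp
  have hv0 : 0 < ‖v‖ := norm_pos_iff.2 hv
  obtain ⟨R, hR⟩ := hb
  set B := |R| with hB
  set w : Rn n := ‖v‖⁻¹ • v with hw
  have hw1 : ‖w‖ = 1 := by rw [hw, norm_smul, norm_inv, norm_norm, inv_mul_cancel₀ hv0.ne']
  set g : Rn n → ℝ := fun x => max (-B) (min B ⟪w, x⟫) with hg
  have hgl : LipschitzWith 1 g := by
    have : LipschitzWith 1 fun x : Rn n => ⟪w, x⟫ := LipschitzWith.of_dist_le_mul fun a b => by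
      rw [Real.dist_eq, dist_eq_norm, NNReal.coe_one, one_mul, ← inner_sub_right]
      exact (abs_real_inner_le_norm _ _).trans (by rw [hw1, one_mul])
    exact (this.const_min B).const_max (-B)
  have hgb : ∀ x, |g x| ≤ B := fun x => abs_le.2
    ⟨le_max_left _ _, max_le (neg_le_self (abs_nonneg R)) (min_le_left _ _)⟩
  have heq : ∀ᵐ x ∂m, ⟪v, x⟫ = ‖v‖ * g x := hR.mono fun x hx => by
    have h1 : |⟪w, x⟫| ≤ B := (abs_real_inner_le_norm w x).trans (by
      rw [hw1, one_mul]; exact hx.trans (le_abs_self R))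
    have h2 := abs_le.1 h1
    simp only [hg, min_eq_right h2.2, max_eq_right h2.1]
    rw [hw, real_inner_smul_left, mul_inv_cancel_left₀ hv0.ne']
  have hmean : ∫ y, ⟪v, y⟫ ∂m = ‖v‖ * ∫ y, g y ∂m := by
    rw [← integral_const_mul]; exact integral_congr_ae heq
  have e : ∫ x, Real.exp (⟪v, x⟫ - ∫ y, ⟪v, y⟫ ∂m) ∂m
      = ∫ x, Real.exp (‖v‖ * (g x - ∫ y, g y ∂m)) ∂m :=
    integral_congr_ae (heq.mono fun x hx => by simp only [hx, hmean, mul_sub])
  rw [e]
  have hi : ∀ {G : Rn n → ℝ} {M : ℝ}, Continuous G → (∀ x, |G x| ≤ M) →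
      Integrable G m := fun hc hM =>
    Integrable.of_bound hc.aestronglyMeasurable _ (ae_of_all _ fun x => by
      simpa [Real.norm_eq_abs] using hM x)
  refine le_of_forall_gt_imp_ge_of_dense fun A hA => ?_
  obtain ⟨ε, hε, hεA⟩ : ∃ ε : ℝ, 0 < ε ∧
      Real.exp (2 * ‖v‖ * ε) * Real.exp (‖v‖ ^ 2 / t) ≤ A := by
    have hpos : 0 < Real.log A - ‖v‖ ^ 2 / t := by
      rw [sub_pos, Real.lt_log_iff_exp_lt ((Real.exp_pos _).trans hA)]
      exact hA
    refine ⟨(Real.log A - ‖v‖ ^ 2 / t) / (2 * ‖v‖), by positivity, le_of_eq ?_⟩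
    rw [mul_div_cancel₀ _ (by positivity), ← Real.exp_add, sub_add_cancel,
      Real.exp_log ((Real.exp_pos _).trans hA)]
  obtain ⟨G, hG, hG1, hGg⟩ := testApprox n g B hgl hgb ε hε
  obtain ⟨hGc, M, hM⟩ := id hG
  have hGi : Integrable G m := hi hGc.continuous fun x => (hM x).1
  have hgi : Integrable g m := hi hgl.continuous hgb
  have hm : |∫ y, G y ∂m - ∫ y, g y ∂m| ≤ ε := by
    rw [← integral_sub hGi hgi, ← Real.norm_eq_abs]
    exact (norm_integral_le_of_norm_le_const (C := ε) (ae_of_all _ fun z => hGg z)).trans_eq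
      (by simp)
  refine le_trans ?_ hεA
  refine le_trans (integral_mono_of_nonneg (ae_of_all _ fun x => (Real.exp_pos _).le)
    ((hi (by fun_prop : Continuous fun x => Real.exp (‖v‖ * (G x - ∫ y, G y ∂m)))
      (M := Real.exp (‖v‖ * (M + |∫ y, G y ∂m|))) fun x => ?_).const_mul (Real.exp (2 * ‖v‖ * ε)))
    (ae_of_all _ fun x => ?_)) ?_
  · rw [Real.abs_exp]
    refine Real.exp_le_exp.2 (mul_le_mul_of_nonneg_left ?_ (norm_nonneg v))
    linarith [(abs_le.1 (hM x).1).2, neg_abs_le (∫ y, G y ∂m)]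
  · simp only []
    rw [← Real.exp_add, Real.exp_le_exp]
    have h1 := abs_le.1 (hGg x)
    have h2 := abs_le.1 hm
    have := mul_le_mul_of_nonneg_left
      (show g x - ∫ y, g y ∂m ≤ 2 * ε + (G x - ∫ y, G y ∂m) by linarith) (norm_nonneg v)
    linarith
  · rw [integral_const_mul]
    exact mul_le_mul_of_nonneg_left (mgfSLC n t m inferInstance ht hs G hG hG1 ‖v‖) (Real.exp_pos _).le

end Vale.Agent.P245.Poly.Cpl
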