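import Vale.Agent.P245.Poly.Coupling.Energy

/-!
# P245, module E: the killed coupling of the two tilt processes

One step moves a pair of tilts with independent draws from the two tilted measures and the same
Gaussian vector, after restricting to a set of good pairs.
-/

set_option linter.style.haveILetI false

namespace Vale.Agent.P245.Poly.Cpl

open MeasureTheory ProbabilityTheory Filter Topology
open scoped RealInnerProductSpace ENNReal NNReal

variable {n : ℕ} {μ : Measure (Rn n)} {B : Set (Rn n)}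

lemma mean_norm_le {m : Measure (Rn n)} [IsProbabilityMeasure m] {R : ℝ}
    (hR : ∀ᵐ x ∂m, ‖x‖ ≤ R) (t : ℝ) (th : Rn n) : ‖mean m t th‖ ≤ R := by
  set a := mean m t th
  have hb : BddSupp m := ⟨R, hR⟩
  have hR0 : 0 ≤ R := by
    obtain ⟨x, hx⟩ := hR.exists
    exact (norm_nonneg x).trans hx
  have h := M2.abs_ex_le (μ := m) hb (h := fun x => ⟪a, x⟫) (C := ‖a‖ * R)
    (hR.mono fun x hx =>
      (abs_real_inner_le_norm a x).trans (mul_le_mul_of_nonneg_left hx (norm_nonneg a))) t th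
  rw [ex_inner hb, real_inner_self_eq_norm_sq, abs_of_nonneg (sq_nonneg _), sq] at h
  rcases (norm_nonneg a).eq_or_lt with h0 | h0
  · rw [← h0]; exact hR0
  · exact le_of_mul_le_mul_left h h0

lemma Env.measurable_gap (h : Env μ B) (t : ℝ) : Measurable fun th => gap μ B t th := by
  haveI := h.prob
  haveI := h.cond_prob
  exact ((measurable_mean h.cond_bdd t).sub (measurable_mean h.bdd t)).norm.pow_const 2

lemma Env.gap_bdd (h : Env μ B) : ∃ C, ∀ t th, |gap μ B t th| ≤ C := by
  haveI := h.prob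
  haveI := h.cond_prob
  obtain ⟨R, hR⟩ := h.bdd
  refine ⟨(R + R) ^ 2, fun t th => ?_⟩
  rw [gap, abs_of_nonneg (sq_nonneg _)]
  refine pow_le_pow_left₀ (norm_nonneg _) ((norm_sub_le _ _).trans (add_le_add ?_ ?_)) 2
  · exact mean_norm_le ((cond_absolutelyContinuous (μ := μ)).ae_le hR) t th
  · exact mean_norm_le hR t th

/-- The gain of relative entropy in one step of the observation. -/
lemma Env.energy_incr (h : Env μ B) (hO : ObsStep) {t s : ℝ} (ht : 0 < t) (hs : 0 < s)
    (hst : s ≤ t) :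
    s / 6 * ∫ th, gap μ B t th ∂(obs (μ[|B]) t)
      ≤ ∫ th, ent μ B (t + s) th ∂(obs μ (t + s)) - ∫ th, ent μ B t th ∂(obs μ t) := by
  haveI := h.prob
  obtain ⟨C, hC⟩ := h.gap_bdd
  have hgm := h.measurable_gap t
  have hC0 : 0 ≤ C := (abs_nonneg _).trans (hC t 0)
  rw [h.integral_obs_cond ht hgm (hC t), ← hO n μ h.prob h.bdd t s ht.le hs.le _
    (h.measurable_ent (t + s)) ⟨_, h.abs_ent (t + s)⟩, le_sub_iff_add_le, ← integral_const_mul]
  have hi1 : Integrable (fun th => s / 6 * (dens μ B t th * gap μ B t th)) (obs μ t) :=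
    (h.integrable_obs ((h.measurable_dens t).mul hgm) (C := (μ.real B)⁻¹ * C) fun th => by
      rw [Pi.mul_apply, abs_mul]
      exact mul_le_mul (h.abs_dens t th) (hC t th) (abs_nonneg _)
        (inv_nonneg.2 h.pos.le)).const_mul _
  have hi2 : Integrable (fun th => ent μ B t th) (obs μ t) :=
    h.integrable_obs (h.measurable_ent t) (h.abs_ent t)
  rw [← integral_add hi1 hi2]
  refine integral_mono (hi1.add hi2) (h.integrable_obs (measurable_step (h.measurable_ent _) t s)
    (fun th => abs_step h.bdd (h.abs_ent _) t s th)) fun th => ?_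
  have := h.energy_step ht hs hst th
  simp only [Pi.add_apply]
  linarith

/-- Density of a tilt. -/
noncomputable def tden (m : Measure (Rn n)) (t : ℝ) (th x : Rn n) : ℝ≥0∞ :=
  ENNReal.ofReal (Real.exp (texp t th x) / zt m t th)

lemma measurable_tden (m : Measure (Rn n)) [IsProbabilityMeasure m] (t : ℝ) :
    Measurable fun q : Rn n × Rn n => tden m t q.1 q.2 := by
  unfold tden
  refine Measurable.ennreal_ofReal (Measurable.div (by unfold texp; fun_prop) ?_)
  exact (M2.measurable_num t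
    (by fun_prop : Measurable (Function.uncurry fun _ _ : Rn n => (1 : ℝ)))).comp measurable_fst

lemma tilt_eq (m : Measure (Rn n)) (t : ℝ) (th : Rn n) :
    tilt m t th = m.withDensity (tden m t th) := by
  unfold tilt tden Measure.tilted
  simp [zt, num]

lemma lintegral_tilt {m : Measure (Rn n)} [IsProbabilityMeasure m] (t : ℝ) (th : Rn n)
    {F : Rn n → ℝ≥0∞} (hF : Measurable F) :
    ∫⁻ x, F x ∂(tilt m t th) = ∫⁻ x, tden m t th x * F x ∂m := by
  rw [tilt_eq, lintegral_withDensity_eq_lintegral_mul _ (measurable_tden m t).of_uncurry_left hF]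
  rfl

/-- The moved pair of tilts. -/
noncomputable def move (h : ℝ) (q : (Rn n × Rn n) × (Rn n × Rn n × Rn n)) : Rn n × Rn n :=
  (q.1.1 + h • q.2.1 + Real.sqrt h • q.2.2.2, q.1.2 + h • q.2.2.1 + Real.sqrt h • q.2.2.2)

lemma measurable_move (h : ℝ) : Measurable (move (n := n) h) := by
  unfold move; fun_prop

/-- One killed step. -/
noncomputable def nxt (μ : Measure (Rn n)) (B : Set (Rn n)) (t h : ℝ) (G : Set (Rn n × Rn n))
    (π : Measure (Rn n × Rn n)) : Measure (Rn n × Rn n) :=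
  (((π.restrict G).prod (μ.prod ((μ[|B]).prod (gam n)))).withDensity fun q =>
    tden μ t q.1.1 q.2.1 * tden (μ[|B]) t q.1.2 q.2.2.1).map (move h)

lemma lintegral_four {α β γ δ : Type*} [MeasurableSpace α] [MeasurableSpace β] [MeasurableSpace γ]
    [MeasurableSpace δ] (ρ : Measure α) [SFinite ρ] (m₁ : Measure β) [SFinite m₁] (m₂ : Measure γ)
    [SFinite m₂] (m₃ : Measure δ) [SFinite m₃] {a : α × β → ℝ≥0∞} {b : α × γ → ℝ≥0∞}
    {F : α × β × γ × δ → ℝ≥0∞} (ha : Measurable a) (hb : Measurable b) (hF : Measurable F) :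
    ∫⁻ q, a (q.1, q.2.1) * b (q.1, q.2.2.1) * F q ∂(ρ.prod (m₁.prod (m₂.prod m₃)))
      = ∫⁻ p, ∫⁻ x, a (p, x) * ∫⁻ y, b (p, y) * ∫⁻ z, F (p, x, y, z) ∂m₃ ∂m₂ ∂m₁ ∂ρ := by
  have hT : Measurable fun q : α × β × γ × δ => a (q.1, q.2.1) * b (q.1, q.2.2.1) * F q := by
    fun_prop
  rw [lintegral_prod _ hT.aemeasurable]
  refine lintegral_congr fun p => ?_
  have hTp : Measurable fun w : β × γ × δ => a (p, w.1) * b (p, w.2.1) * F (p, w) := by fun_prop
  rw [lintegral_prod _ hTp.aemeasurable]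
  refine lintegral_congr fun x => ?_
  have hTx : Measurable fun w : γ × δ => a (p, x) * b (p, w.1) * F (p, x, w) := by fun_prop
  have hI : Measurable fun y => ∫⁻ z, F (p, x, y, z) ∂m₃ :=
    Measurable.lintegral_prod_right' (f := fun w : γ × δ => F (p, x, w)) (by fun_prop)
  have hby : Measurable fun y => b (p, y) := by fun_prop
  rw [lintegral_prod _ hTx.aemeasurable, ← lintegral_const_mul (a (p, x))
    (f := fun y => b (p, y) * ∫⁻ z, F (p, x, y, z) ∂m₃) (hby.mul hI)]
  refine lintegral_congr fun y => ?_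
  simp only []
  rw [lintegral_const_mul _ (show Measurable fun z => F (p, x, y, z) by fun_prop), mul_assoc]

lemma lintegral_pair (m₁ m₂ : Measure (Rn n)) [IsProbabilityMeasure m₁] [IsProbabilityMeasure m₂]
    (t : ℝ) (a b : Rn n) {G : Rn n × Rn n → ℝ≥0∞} (hG : Measurable G) :
    ∫⁻ x, tden m₁ t a x * ∫⁻ y, tden m₂ t b y * G (x, y) ∂m₂ ∂m₁
      = ∫⁻ x, ∫⁻ y, G (x, y) ∂(tilt m₂ t b) ∂(tilt m₁ t a) := by
  have key : ∀ (d : Rn n → ℝ≥0∞), Measurable d →
      Measurable fun x => ∫⁻ y, d y * G (x, y) ∂m₂ := fun d hd =>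
    Measurable.lintegral_prod_right' (f := fun q : Rn n × Rn n => d q.2 * G q) (by fun_prop)
  have hy : ∀ x, ∫⁻ y, G (x, y) ∂(tilt m₂ t b) = ∫⁻ y, tden m₂ t b y * G (x, y) ∂m₂ := fun x =>
    lintegral_tilt t b (by fun_prop)
  simp only [hy]
  exact (lintegral_tilt t a (key _ (measurable_tden m₂ t).of_uncurry_left)).symm

lemma measurable_inner {α : Type*} [MeasurableSpace α] {Φ : α × Rn n × Rn n × Rn n → ℝ≥0∞}
    (hΦ : Measurable Φ) (p : α) :
    Measurable fun q : Rn n × Rn n => ∫⁻ z, Φ (p, q.1, q.2, z) ∂gam n :=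
  Measurable.lintegral_prod_right' (f := fun w : (Rn n × Rn n) × Rn n => Φ (p, w.1.1, w.1.2, w.2))
    (by fun_prop)

lemma lintegral_nxt (h : Env μ B) (t s : ℝ) (G : Set (Rn n × Rn n))
    (π : Measure (Rn n × Rn n)) [SFinite π] {F : Rn n × Rn n → ℝ≥0∞} (hF : Measurable F) :
    ∫⁻ p, F p ∂(nxt μ B t s G π)
      = ∫⁻ p in G, ∫⁻ x, ∫⁻ y, ∫⁻ z, F (move s (p, x, y, z)) ∂gam n ∂(tilt (μ[|B]) t p.2)
          ∂(tilt μ t p.1) ∂π := by
  haveI := h.prob
  haveI := h.cond_prob
  have key₁ : ∀ (a : Rn n → Rn n → ℝ≥0∞), (Measurable fun q : Rn n × Rn n => a q.1 q.2) →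
      (Measurable fun w : (Rn n × Rn n) × Rn n => a w.1.1 w.2) ∧
        Measurable fun w : (Rn n × Rn n) × Rn n => a w.1.2 w.2 := by
    intro a ha
    exact ⟨by fun_prop, by fun_prop⟩
  have ha : Measurable fun w : (Rn n × Rn n) × Rn n => tden μ t w.1.1 w.2 :=
    (key₁ (tden μ t) (measurable_tden μ t)).1
  have hb : Measurable fun w : (Rn n × Rn n) × Rn n => tden (μ[|B]) t w.1.2 w.2 :=
    (key₁ (tden (μ[|B]) t) (measurable_tden _ t)).2
  have hFm : Measurable fun q => F (move s q) := hF.comp (measurable_move s)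
  unfold nxt
  have hm : Measurable fun q : (Rn n × Rn n) × (Rn n × Rn n × Rn n) =>
      tden μ t q.1.1 q.2.1 * tden (μ[|B]) t q.1.2 q.2.2.1 := by
    have key : ∀ (a b : Rn n → Rn n → ℝ≥0∞), (Measurable fun q : Rn n × Rn n => a q.1 q.2) →
        (Measurable fun q : Rn n × Rn n => b q.1 q.2) → Measurable fun q : (Rn n × Rn n) × (Rn n × Rn n × Rn n) =>
          a q.1.1 q.2.1 * b q.1.2 q.2.2.1 := by
      intro a b ha hb
      fun_prop
    exact key (tden μ t) (tden (μ[|B]) t) (measurable_tden μ t) (measurable_tden _ t)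
  rw [lintegral_map hF (measurable_move s), lintegral_withDensity_eq_lintegral_mul _ hm hFm]
  simp only [Pi.mul_apply]
  rw [lintegral_four (π.restrict G) μ (μ[|B]) (gam n)
    (a := fun w => tden μ t w.1.1 w.2) (b := fun w => tden (μ[|B]) t w.1.2 w.2)
    (F := fun q => F (move s q)) ha hb hFm]
  refine lintegral_congr fun p => ?_
  exact lintegral_pair μ (μ[|B]) t p.1 p.2
    (G := fun q => ∫⁻ z, F (move s (p, q.1, q.2, z)) ∂gam n)
    (measurable_inner hFm p)

/-- The killed coupling. -/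
noncomputable def chain (μ : Measure (Rn n)) (B : Set (Rn n)) (s : ℝ) (G : ℕ → Set (Rn n × Rn n)) :
    ℕ → Measure (Rn n × Rn n)
  | 0 => Measure.dirac (0, 0)
  | j + 1 => nxt μ B (j * s) s (G j) (chain μ B s G j)

lemma sfinite_chain (h : Env μ B) (s : ℝ) (G : ℕ → Set (Rn n × Rn n)) :
    ∀ j, SFinite (chain μ B s G j) := by
  haveI := h.prob
  intro j
  induction j with
  | zero => rw [chain]; infer_instance
  | succ j ih => rw [chain, nxt]; infer_instance

lemma obs_zero (m : Measure (Rn n)) [IsProbabilityMeasure m] :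
    obs m 0 = Measure.dirac 0 := by
  simp [obs]

lemma Env.mass_nxt (h : Env μ B) (t s : ℝ) (G : Set (Rn n × Rn n)) (π : Measure (Rn n × Rn n))
    [SFinite π] : nxt μ B t s G π Set.univ = π G := by
  haveI := h.prob
  haveI := h.cond_prob
  have := lintegral_nxt h t s G π (F := fun _ => (1 : ℝ≥0∞)) measurable_const
  rw [lintegral_one] at this
  rw [this]
  haveI := fun th => tilt_prob (m := μ) h.bdd t th
  haveI := fun th => tilt_prob (m := μ[|B]) h.cond_bdd t th
  simp

lemma lintegral_step {m : Measure (Rn n)} [IsProbabilityMeasure m] (hb : BddSupp m) (t s : ℝ)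
    (th : Rn n) {S : Set (Rn n)} (hS : MeasurableSet S) :
    ∫⁻ x, ∫⁻ z, S.indicator (fun _ => (1 : ℝ≥0∞)) (th + s • x + Real.sqrt s • z) ∂gam n
      ∂(tilt m t th) = ENNReal.ofReal (step m t s th (S.indicator fun _ => (1 : ℝ))) := by
  haveI := tilt_prob hb t th
  have hSm : Measurable (S.indicator fun _ => (1 : ℝ)) := measurable_const.indicator hS
  have e : ∀ x, ∫⁻ z, S.indicator (fun _ => (1 : ℝ≥0∞)) (th + s • x + Real.sqrt s • z) ∂gam n
      = ENNReal.ofReal (sm1 s (S.indicator fun _ => (1 : ℝ)) th x) := fun x => by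
    rw [sm1, ofReal_integral_eq_lintegral_ofReal]
    · refine lintegral_congr fun z => ?_
      by_cases hz : th + s • x + Real.sqrt s • z ∈ S <;> simp [hz]
    · exact Integrable.of_bound (hSm.comp (by fun_prop)).aestronglyMeasurable 1
        (ae_of_all _ fun z => by rw [Real.norm_eq_abs]; exact ind_le S _)
    · exact ae_of_all _ fun z => ind_nonneg S _
  simp only [e]
  rw [step_eq, ← Imp.integral_tilt, ofReal_integral_eq_lintegral_ofReal]
  · exact Integrable.of_bound ((measurable_sm1 hSm s).comp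
      (measurable_const.prodMk measurable_id)).aestronglyMeasurable 1
      (ae_of_all _ fun x => by rw [Real.norm_eq_abs]; exact abs_sm1 (ind_le S) s th x)
  · exact ae_of_all _ fun x => integral_nonneg fun z => ind_nonneg S _

lemma obs_step_set {m : Measure (Rn n)} [IsProbabilityMeasure m] (hb : BddSupp m) (hO : ObsStep)
    {t s : ℝ} (ht : 0 ≤ t) (hs : 0 ≤ s) {S : Set (Rn n)} (hS : MeasurableSet S) :
    ∫⁻ th, ENNReal.ofReal (step m t s th (S.indicator fun _ => (1 : ℝ))) ∂(obs m t)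
      = obs m (t + s) S := by
  haveI : IsProbabilityMeasure (obs m t) := Imp.prob_obs
  haveI : IsProbabilityMeasure (obs m (t + s)) := Imp.prob_obs
  have hSm : Measurable (S.indicator fun _ => (1 : ℝ)) := measurable_const.indicator hS
  have he := hO n m inferInstance hb t s ht hs _ hSm ⟨1, ind_le S⟩
  rw [← ofReal_integral_eq_lintegral_ofReal, he, integral_indicator_const _ hS, smul_eq_mul,
    mul_one, ofReal_measureReal]
  · exact Integrable.of_bound (measurable_step hSm t s).aestronglyMeasurable 1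
      (ae_of_all _ fun th => by rw [Real.norm_eq_abs]; exact abs_step hb (ind_le S) t s th)
  · exact ae_of_all _ fun th => by
      simp only [Pi.zero_apply]
      rw [step_eq, ← Imp.integral_tilt]
      exact integral_nonneg fun x => integral_nonneg fun z => ind_nonneg S _

/-- Both marginals of the killed coupling are dominated by the two observations. -/
lemma Env.marg (h : Env μ B) (hO : ObsStep) {s : ℝ} (hs : 0 ≤ s)
    (G : ℕ → Set (Rn n × Rn n)) (j : ℕ) :
    (chain μ B s G j).map Prod.fst ≤ obs μ (j * s) ∧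
      (chain μ B s G j).map Prod.snd ≤ obs (μ[|B]) (j * s) := by
  haveI := h.prob
  haveI := h.cond_prob
  induction j with
  | zero =>
    simp only [chain, Nat.cast_zero, zero_mul, obs_zero, Measure.map_dirac]
    exact ⟨le_rfl, le_rfl⟩
  | succ j ih =>
    haveI := sfinite_chain h s G j
    haveI := fun th => tilt_prob (m := μ) h.bdd (j * s) th
    haveI := fun th => tilt_prob (m := μ[|B]) h.cond_bdd (j * s) th
    have ht : (0 : ℝ) ≤ j * s := by positivity
    have hcast : ((j + 1 : ℕ) : ℝ) * s = j * s + s := by push_cast; ring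
    rw [hcast]
    constructor <;> refine Measure.le_iff.2 fun S hS => ?_
    · rw [Measure.map_apply measurable_fst hS, ← obs_step_set h.bdd hO ht hs hS,
        ← lintegral_indicator_one (measurable_fst hS), chain,
        lintegral_nxt h _ _ _ _ ((measurable_one (α := ℝ≥0∞) (β := Rn n × Rn n)).indicator (measurable_fst hS))]
      refine (setLIntegral_le_lintegral _ _).trans ?_
      have e : ∀ p : Rn n × Rn n, ∫⁻ x, ∫⁻ y, ∫⁻ z, (Prod.fst ⁻¹' S).indicator (1 : Rn n × Rn n → ℝ≥0∞)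
          (move s (p, x, y, z)) ∂gam n ∂(tilt (μ[|B]) (j * s) p.2) ∂(tilt μ (j * s) p.1)
          = ENNReal.ofReal (step μ (j * s) s p.1 (S.indicator fun _ => (1 : ℝ))) := fun p => by
        rw [← lintegral_step h.bdd _ s p.1 hS]
        refine lintegral_congr fun x => ?_
        have : ∀ y z, (Prod.fst ⁻¹' S).indicator (1 : Rn n × Rn n → ℝ≥0∞) (move s (p, x, y, z))
            = S.indicator (fun _ => (1 : ℝ≥0∞)) (p.1 + s • x + Real.sqrt s • z) := fun y z => rfl
        simp only [this]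
        rw [lintegral_const, measure_univ, mul_one]
      simp only [e]
      rw [← lintegral_map (f := fun th => ENNReal.ofReal (step μ (j * s) s th
        (S.indicator fun _ => (1 : ℝ))))
        (measurable_step (measurable_const.indicator hS) _ _).ennreal_ofReal measurable_fst]
      exact lintegral_mono' ih.1 le_rfl
    · rw [Measure.map_apply measurable_snd hS, ← obs_step_set h.cond_bdd hO ht hs hS,
        ← lintegral_indicator_one (measurable_snd hS), chain,
        lintegral_nxt h _ _ _ _ ((measurable_one (α := ℝ≥0∞) (β := Rn n × Rn n)).indicator (measurable_snd hS))]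
      refine (setLIntegral_le_lintegral _ _).trans ?_
      have e : ∀ p : Rn n × Rn n, ∫⁻ x, ∫⁻ y, ∫⁻ z, (Prod.snd ⁻¹' S).indicator (1 : Rn n × Rn n → ℝ≥0∞)
          (move s (p, x, y, z)) ∂gam n ∂(tilt (μ[|B]) (j * s) p.2) ∂(tilt μ (j * s) p.1)
          = ENNReal.ofReal (step (μ[|B]) (j * s) s p.2 (S.indicator fun _ => (1 : ℝ))) :=
        fun p => by
        rw [← lintegral_step h.cond_bdd _ s p.2 hS]
        have : ∀ x, ∫⁻ y, ∫⁻ z, (Prod.snd ⁻¹' S).indicator (1 : Rn n × Rn n → ℝ≥0∞)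
            (move s (p, x, y, z)) ∂gam n ∂(tilt (μ[|B]) (j * s) p.2)
            = ∫⁻ y, ∫⁻ z, S.indicator (fun _ => (1 : ℝ≥0∞)) (p.2 + s • y + Real.sqrt s • z)
              ∂gam n ∂(tilt (μ[|B]) (j * s) p.2) := fun x => rfl
        simp only [this]
        rw [lintegral_const, measure_univ, mul_one]
      simp only [e]
      rw [← lintegral_map (f := fun th => ENNReal.ofReal (step (μ[|B]) (j * s) s th
        (S.indicator fun _ => (1 : ℝ))))
        (measurable_step (measurable_const.indicator hS) _ _).ennreal_ofReal measurable_snd]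
      exact lintegral_mono' ih.2 le_rfl

/-- Squared distance of the pair. -/
noncomputable def dsq (p : Rn n × Rn n) : ℝ≥0∞ := ENNReal.ofReal (‖p.2 - p.1‖ ^ 2)

lemma sq_moment_obs {m : Measure (Rn n)} [IsProbabilityMeasure m] (hb : BddSupp m) {t : ℝ}
    (ht : 0 ≤ t) :
    Measurable (fun th => ex m t th fun x => ‖x‖ ^ 2) ∧
    ∫⁻ th, ENNReal.ofReal (ex m t th fun x => ‖x‖ ^ 2) ∂(obs m t)
      = ENNReal.ofReal (∫ x, ‖x‖ ^ 2 ∂m) := by
  have hm : Measurable fun th => ex m t th fun x => ‖x‖ ^ 2 :=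
    measurable_ex (H := fun _ x => ‖x‖ ^ 2) (by fun_prop) t
  refine ⟨hm, ?_⟩
  rcases ht.eq_or_lt with rfl | ht'
  · rw [obs_zero, lintegral_dirac' _ hm.ennreal_ofReal]
    simp [ex, zt, num, texp]
  obtain ⟨R, hR⟩ := id hb
  have hC : ∀ᵐ x ∂m, ∀ _th : Rn n, |‖x‖ ^ 2| ≤ R ^ 2 := hR.mono fun x hx _ => by
    rw [abs_of_nonneg (sq_nonneg _)]; exact pow_le_pow_left₀ (norm_nonneg x) hx 2
  obtain ⟨hi, he⟩ := M2.mixture_ae hb ht' (H := fun _ x => ‖x‖ ^ 2) (by fun_prop) hC
  haveI : IsProbabilityMeasure (obs m t) := Imp.prob_obs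
  rw [← ofReal_integral_eq_lintegral_ofReal, ← he, integral_prod _ hi]
  · simp
  · exact Integrable.of_bound hm.aestronglyMeasurable (R ^ 2) (ae_of_all _ fun th => by
      rw [Real.norm_eq_abs]
      exact M2.abs_ex_le hb (hC.mono fun x hx => hx th) t th)
  · exact ae_of_all _ fun th => by
      simp only [Pi.zero_apply]
      rw [← Imp.integral_tilt]
      exact integral_nonneg fun x => sq_nonneg _

/-- The mean squared distance after one step. -/
lemma Env.sq_dist_next (h : Env μ B) (t s : ℝ) (p : Rn n × Rn n) :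
    ∫⁻ x, ∫⁻ y, ∫⁻ z, dsq (move s (p, x, y, z)) ∂gam n ∂(tilt (μ[|B]) t p.2) ∂(tilt μ t p.1)
      ≤ ENNReal.ofReal (‖p.2 - p.1‖ ^ 2
        + 2 * s * (⟪p.2 - p.1, mean (μ[|B]) t p.2⟫ - ⟪p.2 - p.1, mean μ t p.1⟫)
        + s ^ 2 * (2 * ex (μ[|B]) t p.2 (fun y => ‖y‖ ^ 2)
          + 2 * ex μ t p.1 (fun x => ‖x‖ ^ 2))) := by
  haveI := h.prob
  haveI := h.cond_prob
  haveI := tilt_prob (m := μ) h.bdd t p.1
  haveI := tilt_prob (m := μ[|B]) h.cond_bdd t p.2
  set d := p.2 - p.1 with hd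
  have hbx := tilt_bdd (m := μ) h.bdd t p.1
  have hby := tilt_bdd (m := μ[|B]) h.cond_bdd t p.2
  obtain ⟨R, hR⟩ := hbx
  obtain ⟨R', hR'⟩ := hby
  set F : Rn n → Rn n → ℝ := fun x y => ‖d‖ ^ 2 + 2 * s * (⟪d, y⟫ - ⟪d, x⟫)
    + s ^ 2 * (2 * ‖y‖ ^ 2 + 2 * ‖x‖ ^ 2) with hF
  have hle : ∀ x y z, dsq (move s (p, x, y, z)) ≤ ENNReal.ofReal (F x y) := fun x y z => by
    refine ENNReal.ofReal_le_ofReal ?_
    simp only [move]
    rw [show p.2 + s • y + Real.sqrt s • z - (p.1 + s • x + Real.sqrt s • z)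
      = d + s • (y - x) by rw [hd, smul_sub]; abel, norm_add_sq_real, real_inner_smul_right,
      inner_sub_right, norm_smul, mul_pow, Real.norm_eq_abs, sq_abs]
    simp only [hF]
    have h1 : ‖y - x‖ ^ 2 ≤ 2 * ‖y‖ ^ 2 + 2 * ‖x‖ ^ 2 := by
      have h0 := pow_le_pow_left₀ (norm_nonneg _) (norm_sub_le y x) 2
      have h2 := sq_nonneg (‖y‖ - ‖x‖)
      linarith [add_sq ‖y‖ ‖x‖, sub_sq ‖y‖ ‖x‖]
    have := mul_le_mul_of_nonneg_left h1 (sq_nonneg s)
    linarith
  have hF0 : ∀ x y, 0 ≤ F x y := fun x y => by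
    have h1 : F x y = ‖d + s • (y - x)‖ ^ 2 + s ^ 2 * ‖y + x‖ ^ 2 := by
      rw [norm_add_sq_real y x]
      simp only [hF]
      rw [norm_add_sq_real, real_inner_smul_right, inner_sub_right, norm_smul,
        mul_pow, Real.norm_eq_abs, sq_abs, norm_sub_sq_real y x]
      ring
    rw [h1]; positivity
  have hix : ∀ {G : Rn n → ℝ}, Continuous G → Integrable G (tilt μ t p.1) := fun {G} hG => by
    obtain ⟨M, hM⟩ := (isCompact_closedBall (0 : Rn n) R).exists_bound_of_continuousOn
      hG.continuousOn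
    exact Integrable.of_bound hG.aestronglyMeasurable M
      (hR.mono fun x hx => hM x (by simpa using hx))
  have hiy : ∀ {G : Rn n → ℝ}, Continuous G → Integrable G (tilt (μ[|B]) t p.2) := fun {G} hG => by
    obtain ⟨M, hM⟩ := (isCompact_closedBall (0 : Rn n) R').exists_bound_of_continuousOn
      hG.continuousOn
    exact Integrable.of_bound hG.aestronglyMeasurable M
      (hR'.mono fun x hx => hM x (by simpa using hx))
  set A := ⟪d, mean (μ[|B]) t p.2⟫
  set Qy := ex (μ[|B]) t p.2 fun y => ‖y‖ ^ 2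
  have iy : ∀ x, ∫ y, F x y ∂(tilt (μ[|B]) t p.2)
      = ‖d‖ ^ 2 + 2 * s * (A - ⟪d, x⟫) + s ^ 2 * (2 * Qy + 2 * ‖x‖ ^ 2) := fun x => by
    simp only [hF]
    rw [integral_add (hiy (by fun_prop)) (hiy (by fun_prop)),
      integral_add (integrable_const _) (hiy (by fun_prop)), integral_const_mul, integral_const_mul,
      integral_sub (hiy (by fun_prop)) (integrable_const _),
      integral_add (hiy (by fun_prop)) (integrable_const _), integral_const_mul]
    simp only [integral_const, probReal_univ, one_smul, Imp.integral_tilt, ex_inner h.cond_bdd]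
    rfl
  calc ∫⁻ x, ∫⁻ y, ∫⁻ z, dsq (move s (p, x, y, z)) ∂gam n ∂(tilt (μ[|B]) t p.2) ∂(tilt μ t p.1)
      ≤ ∫⁻ x, ∫⁻ y, ENNReal.ofReal (F x y) ∂(tilt (μ[|B]) t p.2) ∂(tilt μ t p.1) :=
        lintegral_mono fun x => lintegral_mono fun y =>
          (lintegral_mono (hle x y)).trans (by simp)
    _ = ∫⁻ x, ENNReal.ofReal (∫ y, F x y ∂(tilt (μ[|B]) t p.2)) ∂(tilt μ t p.1) :=
        lintegral_congr fun x => (ofReal_integral_eq_lintegral_ofReal
          (hiy (by simp only [hF]; fun_prop)) (ae_of_all _ (hF0 x))).symm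
    _ = ENNReal.ofReal (∫ x, ∫ y, F x y ∂(tilt (μ[|B]) t p.2) ∂(tilt μ t p.1)) := by
        refine (ofReal_integral_eq_lintegral_ofReal ?_
          (ae_of_all _ fun x => integral_nonneg (hF0 x))).symm
        simp only [iy]
        exact hix (by fun_prop)
    _ = _ := by
        congr 1
        simp only [iy]
        rw [integral_add (hix (by fun_prop)) (hix (by fun_prop)),
          integral_add (integrable_const _) (hix (by fun_prop)), integral_const_mul,
          integral_const_mul, integral_sub (integrable_const _) (hix (by fun_prop)),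
          integral_add (integrable_const _) (hix (by fun_prop)), integral_const_mul]
        simp only [integral_const, probReal_univ, one_smul, Imp.integral_tilt, ex_inner h.bdd,
          M2.ex_const_mul]

/-- The recursion for the mean squared distance. -/
lemma Env.moment_next (h : Env μ B) {t s T a b : ℝ} (ht : 0 ≤ t) (hs : 0 ≤ s) (hT : 0 < T)
    (ha : 0 ≤ a) (hb : 0 ≤ b) {G : Set (Rn n × Rn n)} (hG : MeasurableSet G)
    (π : Measure (Rn n × Rn n)) [SFinite π] (hπ1 : π Set.univ ≤ 1)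
    (hfst : π.map Prod.fst ≤ obs μ t) (hsnd : π.map Prod.snd ≤ obs (μ[|B]) t)
    (hgood : ∀ p ∈ G, ⟪p.2 - p.1, mean μ t p.2⟫ - ⟪p.2 - p.1, mean μ t p.1⟫
      ≤ a * ‖p.2 - p.1‖ ^ 2 + b) :
    ∫⁻ p, dsq p ∂(nxt μ B t s G π)
      ≤ ENNReal.ofReal (1 + (s / T + 2 * s * a)) * ∫⁻ p, dsq p ∂π + ENNReal.ofReal (2 * s * b)
        + ENNReal.ofReal (s * T * ∫ th, gap μ B t th ∂(obs (μ[|B]) t))
        + ENNReal.ofReal (2 * s ^ 2 * ((∫ x, ‖x‖ ^ 2 ∂(μ[|B])) + ∫ x, ‖x‖ ^ 2 ∂μ)) := by
  haveI := h.prob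
  haveI := h.cond_prob
  haveI : IsProbabilityMeasure (obs (μ[|B]) t) := Imp.prob_obs
  haveI := fun th => tilt_prob (m := μ) h.bdd t th
  haveI := fun th => tilt_prob (m := μ[|B]) h.cond_bdd t th
  have hdm : Measurable (dsq (n := n)) := by unfold dsq; fun_prop
  rw [lintegral_nxt h t s G π hdm]
  set Qy := fun th : Rn n => ex (μ[|B]) t th fun y => ‖y‖ ^ 2 with hQy
  set Qx := fun th : Rn n => ex μ t th fun y => ‖y‖ ^ 2 with hQx
  obtain ⟨hmy, hey⟩ := sq_moment_obs (m := μ[|B]) h.cond_bdd ht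
  obtain ⟨hmx, hex⟩ := sq_moment_obs (m := μ) h.bdd ht
  set δ := s / T + 2 * s * a
  have hδ : 0 ≤ δ := by positivity
  have hQy0 : ∀ th, 0 ≤ Qy th := fun th => by
    rw [hQy]; simp only [← Imp.integral_tilt]; exact integral_nonneg fun x => sq_nonneg _
  have hQx0 : ∀ th, 0 ≤ Qx th := fun th => by
    rw [hQx]; simp only [← Imp.integral_tilt]; exact integral_nonneg fun x => sq_nonneg _
  set f1 := fun p : Rn n × Rn n => ENNReal.ofReal (1 + δ) * dsq p
  set f2 := fun _ : Rn n × Rn n => ENNReal.ofReal (2 * s * b)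
  set f3 := fun p : Rn n × Rn n => ENNReal.ofReal (s * T * gap μ B t p.2)
  set f4 := fun p : Rn n × Rn n => ENNReal.ofReal (2 * s ^ 2 * Qy p.2)
  set f5 := fun p : Rn n × Rn n => ENNReal.ofReal (2 * s ^ 2 * Qx p.1)
  have hgm : Measurable fun th => ENNReal.ofReal (s * T * gap μ B t th) :=
    ((h.measurable_gap t).const_mul _).ennreal_ofReal
  have hym : Measurable fun th => ENNReal.ofReal (2 * s ^ 2 * Qy th) :=
    (hmy.const_mul _).ennreal_ofReal
  have hxm : Measurable fun th => ENNReal.ofReal (2 * s ^ 2 * Qx th) :=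
    (hmx.const_mul _).ennreal_ofReal
  have m1 : Measurable f1 := hdm.const_mul _
  have m3 : Measurable f3 := hgm.comp measurable_snd
  have m4 : Measurable f4 := hym.comp measurable_snd
  refine (setLIntegral_mono' (g := fun p => f1 p + f2 p + f3 p + (f4 p + f5 p)) hG
    fun p hp => (h.sq_dist_next t s p).trans ?_).trans ((setLIntegral_le_lintegral _ _).trans ?_)
  · set d := p.2 - p.1 with hd
    have hg0 : 0 ≤ gap μ B t p.2 := sq_nonneg _
    have hQ1 := hQy0 p.2
    have hQ2 := hQx0 p.1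
    simp only [f1, f2, f3, f4, f5, dsq, ← hd]
    rw [← ENNReal.ofReal_mul (by linarith), ← ENNReal.ofReal_add (by positivity) (by positivity),
      ← ENNReal.ofReal_add (by positivity) (by positivity),
      ← ENNReal.ofReal_add (by positivity) (by positivity),
      ← ENNReal.ofReal_add (by positivity) (by positivity)]
    refine ENNReal.ofReal_le_ofReal ?_
    have h1 := hgood p hp
    rw [← hd] at h1
    have h2 : 2 * (⟪d, mean (μ[|B]) t p.2⟫ - ⟪d, mean μ t p.2⟫)
        ≤ ‖d‖ ^ 2 / T + T * gap μ B t p.2 := by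
      rw [← inner_sub_right, gap]
      refine le_trans (mul_le_mul_of_nonneg_left (real_inner_le_norm _ _) two_pos.le) ?_
      set X := ‖d‖
      set Y := ‖mean (μ[|B]) t p.2 - mean μ t p.2‖
      rw [div_add' _ _ _ hT.ne', le_div_iff₀ hT]
      linarith [sq_nonneg (X - T * Y), sub_sq X (T * Y), mul_pow T Y 2]
    have h3 := mul_le_mul_of_nonneg_left h2 hs
    have h4 := mul_le_mul_of_nonneg_left h1 (mul_nonneg two_pos.le hs)
    have e : (1 + δ) * ‖d‖ ^ 2 = ‖d‖ ^ 2 + s * (‖d‖ ^ 2 / T) + 2 * s * a * ‖d‖ ^ 2 := by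
      simp only [δ]; ring
    simp only [hQy, hQx]
    linarith
  have m2 : Measurable f2 := measurable_const
  rw [lintegral_add_left (show Measurable fun p => f1 p + f2 p + f3 p from (m1.add m2).add m3),
    lintegral_add_left (show Measurable fun p => f1 p + f2 p from m1.add m2),
    lintegral_add_left m1, lintegral_add_left m4]
  simp only [f1, f2, f3, f4, f5]
  rw [lintegral_const_mul _ hdm, lintegral_const]
  have b3 : ∫⁻ p, ENNReal.ofReal (s * T * gap μ B t p.2) ∂π
      ≤ ENNReal.ofReal (s * T * ∫ th, gap μ B t th ∂(obs (μ[|B]) t)) := by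
    rw [← lintegral_map hgm measurable_snd]
    refine (lintegral_mono' hsnd le_rfl).trans (le_of_eq ?_)
    obtain ⟨C, hC⟩ := h.gap_bdd
    rw [← integral_const_mul, ofReal_integral_eq_lintegral_ofReal]
    · exact (Integrable.of_bound (h.measurable_gap t).aestronglyMeasurable C
        (ae_of_all _ fun th => by rw [Real.norm_eq_abs]; exact hC t th)).const_mul _
    · exact ae_of_all _ fun th => mul_nonneg (mul_nonneg hs hT.le) (sq_nonneg _)
  have b4 : ∫⁻ p, ENNReal.ofReal (2 * s ^ 2 * Qy p.2) ∂π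
      ≤ ENNReal.ofReal (2 * s ^ 2 * ∫ x, ‖x‖ ^ 2 ∂(μ[|B])) := by
    rw [← lintegral_map hym measurable_snd]
    refine (lintegral_mono' hsnd le_rfl).trans (le_of_eq ?_)
    simp only [ENNReal.ofReal_mul (show (0:ℝ) ≤ 2 * s ^ 2 by positivity)]
    rw [lintegral_const_mul _ hmy.ennreal_ofReal, hey]
  have b5 : ∫⁻ p, ENNReal.ofReal (2 * s ^ 2 * Qx p.1) ∂π
      ≤ ENNReal.ofReal (2 * s ^ 2 * ∫ x, ‖x‖ ^ 2 ∂μ) := by
    rw [← lintegral_map hxm measurable_fst]
    refine (lintegral_mono' hfst le_rfl).trans (le_of_eq ?_)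
    simp only [ENNReal.ofReal_mul (show (0:ℝ) ≤ 2 * s ^ 2 by positivity)]
    rw [lintegral_const_mul _ hmx.ennreal_ofReal, hex]
  refine (add_le_add (add_le_add (add_le_add le_rfl (mul_le_of_le_one_right' hπ1)) b3)
    (add_le_add b4 b5)).trans (le_of_eq ?_)
  rw [← ENNReal.ofReal_add (mul_nonneg (by positivity) (integral_nonneg fun x => sq_nonneg _))
    (mul_nonneg (by positivity) (integral_nonneg fun x => sq_nonneg _)), ← mul_add]

end Vale.Agent.P245.Poly.Cpl
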