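import Vale.Agent.P245.Poly.Coupling.Base

/-!
# P245, module E: the energy of the tilt process of a conditioned measure

Along the tilt process the relative entropy of the observation of `μ[|B]` with respect to that of
`μ` increases at least at the rate of the squared difference of the tilted means, and it never
exceeds `log (1 / μ B)`.
-/

namespace Vale.Agent.P245.Poly.Cpl

open MeasureTheory ProbabilityTheory Filter Topology
open scoped RealInnerProductSpace ENNReal NNReal

set_option linter.style.haveILetI false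

variable {n : ℕ}

/-- A measure conditioned on a set of positive probability. -/
structure Env (μ : Measure (Rn n)) (B : Set (Rn n)) : Prop where
  prob : IsProbabilityMeasure μ
  bdd : BddSupp μ
  slc : IsSLC 0 μ
  meas : MeasurableSet B
  pos : 0 < μ.real B

/-- Density of the observation of the conditioned measure. -/
noncomputable def dens (μ : Measure (Rn n)) (B : Set (Rn n)) (t : ℝ) (th : Rn n) : ℝ :=
  ex μ t th (B.indicator fun _ => 1) / μ.real B

/-- Indicator of the set, times a function. -/
noncomputable def rin (B : Set (Rn n)) (φ : Rn n → ℝ) (x : Rn n) : ℝ :=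
  B.indicator (fun _ => (1 : ℝ)) x * φ x

/-- The entropy `g log g` of the density. -/
noncomputable def ent (μ : Measure (Rn n)) (B : Set (Rn n)) (t : ℝ) (th : Rn n) : ℝ :=
  dens μ B t th * Real.log (dens μ B t th)

/-- Squared difference of the tilted means. -/
noncomputable def gap (μ : Measure (Rn n)) (B : Set (Rn n)) (t : ℝ) (th : Rn n) : ℝ :=
  ‖mean (μ[|B]) t th - mean μ t th‖ ^ 2

variable {μ : Measure (Rn n)} {B : Set (Rn n)}

lemma ind_le (B : Set (Rn n)) (x : Rn n) : |B.indicator (fun _ => (1 : ℝ)) x| ≤ 1 := by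
  by_cases hx : x ∈ B <;> simp [hx]

lemma ind_nonneg (B : Set (Rn n)) (x : Rn n) : 0 ≤ B.indicator (fun _ => (1 : ℝ)) x := by
  by_cases hx : x ∈ B <;> simp [hx]

lemma Env.ne_zero (h : Env μ B) : μ B ≠ 0 := fun e => by
  have := h.pos
  simp [measureReal_def, e] at this

lemma Env.cond_prob (h : Env μ B) : IsProbabilityMeasure (μ[|B]) := by
  haveI := h.prob
  exact cond_isProbabilityMeasure h.ne_zero

lemma Env.cond_bdd (h : Env μ B) : BddSupp (μ[|B]) := by
  obtain ⟨R, hR⟩ := h.bdd
  exact ⟨R, (cond_absolutelyContinuous (μ := μ)).ae_le hR⟩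

lemma Env.integral_cond (h : Env μ B) (φ : Rn n → ℝ) :
    ∫ x, φ x ∂(μ[|B]) = (μ.real B)⁻¹ * ∫ x, rin B φ x ∂μ := by
  haveI := h.prob
  rw [ProbabilityTheory.cond, integral_smul_measure, ENNReal.toReal_inv, smul_eq_mul, ← measureReal_def,
    ← integral_indicator h.meas]
  congr 1
  refine integral_congr_ae (ae_of_all _ fun x => ?_)
  by_cases hx : x ∈ B <;> simp [rin, hx]

lemma Env.num_cond (h : Env μ B) (t : ℝ) (th : Rn n) (φ : Rn n → ℝ) :
    num (μ[|B]) t th φ = (μ.real B)⁻¹ * num μ t th (rin B φ) := by
  unfold num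
  rw [h.integral_cond]
  congr 1
  refine integral_congr_ae (ae_of_all _ fun x => ?_)
  simp only [rin]
  ring

lemma Env.ind_num_pos (h : Env μ B) (t : ℝ) (th : Rn n) :
    0 < num μ t th (B.indicator fun _ => 1) := by
  haveI := h.prob
  haveI := h.cond_prob
  have h1 := M2.zt_pos h.cond_bdd t th
  rw [zt, h.num_cond] at h1
  have e : rin B (fun _ => (1 : ℝ)) = B.indicator fun _ => 1 := by funext x; simp [rin]
  rw [e] at h1
  exact (pos_iff_pos_of_mul_pos h1).1 (inv_pos.2 h.pos)

lemma Env.ex_ind_pos (h : Env μ B) (t : ℝ) (th : Rn n) :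
    0 < ex μ t th (B.indicator fun _ => 1) := by
  haveI := h.prob
  exact div_pos (h.ind_num_pos t th) (M2.zt_pos h.bdd t th)

lemma Env.ex_cond (h : Env μ B) (t : ℝ) (th : Rn n) (φ : Rn n → ℝ) :
    ex (μ[|B]) t th φ = ex μ t th (rin B φ) / ex μ t th (B.indicator fun _ => 1) := by
  haveI := h.prob
  have e : rin B (fun _ => (1 : ℝ)) = B.indicator fun _ => 1 := by funext x; simp [rin]
  have hz := (M2.zt_pos h.bdd t th).ne'
  have hi := (h.ind_num_pos t th).ne'
  simp only [ex, zt]
  rw [h.num_cond, h.num_cond, e, mul_div_mul_left _ _ (inv_ne_zero h.pos.ne'),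
    div_div_div_cancel_right₀]
  simpa [zt] using hz

lemma Env.dens_pos (h : Env μ B) (t : ℝ) (th : Rn n) : 0 < dens μ B t th :=
  div_pos (h.ex_ind_pos t th) h.pos

lemma Env.dens_le (h : Env μ B) (t : ℝ) (th : Rn n) : dens μ B t th ≤ (μ.real B)⁻¹ := by
  haveI := h.prob
  rw [dens, inv_eq_one_div]
  exact div_le_div_of_nonneg_right ((le_abs_self _).trans
    (abs_ex_le h.bdd (ind_le B) t th)) h.pos.le

lemma Env.abs_dens (h : Env μ B) (t : ℝ) (th : Rn n) : |dens μ B t th| ≤ (μ.real B)⁻¹ := by
  rw [abs_of_pos (h.dens_pos t th)]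
  exact h.dens_le t th

lemma Env.measurable_dens (h : Env μ B) (t : ℝ) : Measurable fun th => dens μ B t th := by
  haveI := h.prob
  exact (measurable_ex (H := fun _ => B.indicator fun _ => (1 : ℝ))
    ((measurable_const.indicator h.meas).comp measurable_snd) t).div_const _

lemma Env.integrable_obs (h : Env μ B) {t : ℝ} {F : Rn n → ℝ} (hF : Measurable F) {C : ℝ}
    (hC : ∀ x, |F x| ≤ C) : Integrable F (obs μ t) := by
  haveI := h.prob
  haveI : IsProbabilityMeasure (obs μ t) := Imp.prob_obs
  exact Integrable.of_bound hF.aestronglyMeasurable C (ae_of_all _ fun x => by simpa using hC x)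

/-- Tilting commutes with one step of the process. -/
lemma step_ex_mul {m : Measure (Rn n)} [IsProbabilityMeasure m] (hb : BddSupp m) (t : ℝ) {h : ℝ}
    (hh : 0 < h) (th : Rn n) {F φ : Rn n → ℝ} (hF : Measurable F) {C : ℝ} (hC : ∀ x, |F x| ≤ C)
    (hφ : Measurable φ) {C' : ℝ} (hC' : ∀ x, |φ x| ≤ C') :
    step m t h th (fun q => F q * ex m (t + h) q φ) = ex m t th fun x => φ x * sm1 h F th x := by
  haveI := tilt_prob hb t th
  have hC0 : 0 ≤ C := (abs_nonneg _).trans (hC 0)
  have hbt := tilt_bdd (m := m) hb t th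
  set G : Rn n → ℝ := fun q => F q * ex m (t + h) q φ with hG
  have hGm : Measurable G :=
    hF.mul (measurable_ex (H := fun _ => φ) (hφ.comp measurable_snd) (t + h))
  have hGC : ∀ q, |G q| ≤ C * C' := fun q => by
    rw [hG, abs_mul]
    exact mul_le_mul (hC q) (abs_ex_le hb hC' _ _) (abs_nonneg _) hC0
  have key : ∀ (H : Rn n → Rn n → ℝ) (K : ℝ), Measurable (Function.uncurry H) →
      (∀ e x, |H e x| ≤ K) → ∫ x, ∫ z, H (h • x + Real.sqrt h • z) x ∂gam n ∂(tilt m t th)
        = ∫ e, ex (tilt m t th) h e (H e) ∂(obs (tilt m t th) h) := by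
    intro H K hm hK
    obtain ⟨hi, he⟩ := M2.mixture_ae hbt hh hm (Eventually.of_forall fun x e => hK e x)
    rw [← he, integral_prod _ hi]
  have e1 := key (fun e _ => G (th + e)) (C * C')
    (hGm.comp (measurable_const.add measurable_fst)) fun e _ => hGC _
  have e2 := key (fun e x => φ x * F (th + e)) (C' * C)
    ((hφ.comp measurable_snd).mul (hF.comp (measurable_const.add measurable_fst))) fun e x => by
      rw [abs_mul]
      exact mul_le_mul (hC' x) (hC _) (abs_nonneg _) ((abs_nonneg _).trans (hC' x))
  have l1 : step m t h th G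
      = ∫ x, ∫ z, G (th + (h • x + Real.sqrt h • z)) ∂gam n ∂(tilt m t th) := by
    rw [step_eq, ← Imp.integral_tilt]
    simp only [sm1, add_assoc]
  have l2 : ex m t th (fun x => φ x * sm1 h F th x)
      = ∫ x, ∫ z, φ x * F (th + (h • x + Real.sqrt h • z)) ∂gam n ∂(tilt m t th) := by
    rw [← Imp.integral_tilt]
    simp only [sm1, add_assoc, integral_const_mul]
  rw [l1, l2, e1, e2]
  refine integral_congr_ae (ae_of_all _ fun e => ?_)
  simp only [tilt_tilt hb, hG]
  have a1 : ex m (t + h) (th + e) (fun _ => F (th + e) * ex m (t + h) (th + e) φ)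
      = F (th + e) * ex m (t + h) (th + e) φ := by
    have hz := M2.zt_pos (μ := m) hb (t + h) (th + e)
    simp only [ex, num, integral_const_mul]
    simp only [zt, num, one_mul] at hz ⊢
    field_simp
  have a2 : ex m (t + h) (th + e) (fun x => φ x * F (th + e))
      = F (th + e) * ex m (t + h) (th + e) φ := by
    rw [← M2.ex_const_mul]
    simp only [mul_comm]
  rw [a1, a2]

/-- Change of measure along one step. -/
lemma Env.dens_step (h : Env μ B) (t : ℝ) {s : ℝ} (hs : 0 < s) (th : Rn n) {F : Rn n → ℝ}
    (hF : Measurable F) {C : ℝ} (hC : ∀ x, |F x| ≤ C) :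
    step μ t s th (fun q => F q * dens μ B (t + s) q)
      = dens μ B t th * step (μ[|B]) t s th F := by
  haveI := h.prob
  have hp := h.pos.ne'
  have hi := (h.ex_ind_pos t th).ne'
  have e := step_ex_mul (m := μ) h.bdd t hs th hF hC (φ := fun x => B.indicator (fun _ => (1:ℝ)) x /
    μ.real B) ((measurable_const.indicator h.meas).div_const _) (C' := (μ.real B)⁻¹) fun x => by
      rw [abs_div, abs_of_pos h.pos, inv_eq_one_div]
      exact div_le_div_of_nonneg_right (ind_le B x) h.pos.le
  have e2 : ∀ q, ex μ (t + s) q (fun x => B.indicator (fun _ => (1:ℝ)) x / μ.real B)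
      = dens μ B (t + s) q := fun q => by
    simp only [div_eq_inv_mul, M2.ex_const_mul, dens]
  simp only [e2] at e
  rw [e, step_eq, h.ex_cond, dens]
  simp only [div_eq_inv_mul, mul_assoc, M2.ex_const_mul]
  field_simp
  rfl

/-- Integrals against the observation of the conditioned measure. -/
lemma Env.integral_obs_cond (h : Env μ B) {t : ℝ} (ht : 0 < t) {F : Rn n → ℝ} (hF : Measurable F)
    {C : ℝ} (hC : ∀ x, |F x| ≤ C) :
    ∫ th, F th ∂(obs (μ[|B]) t) = ∫ th, dens μ B t th * F th ∂(obs μ t) := by
  haveI := h.prob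
  haveI := h.cond_prob
  have hC0 : 0 ≤ C := (abs_nonneg _).trans (hC 0)
  have hθ : Measurable fun p : Rn n × Rn n => t • p.1 + Real.sqrt t • p.2 := by fun_prop
  have hm : Measurable (Function.uncurry fun th x => B.indicator (fun _ => (1:ℝ)) x * F th) :=
    ((measurable_const.indicator h.meas).comp measurable_snd).mul (hF.comp measurable_fst)
  obtain ⟨hi, he⟩ := M2.mixture_ae h.bdd ht hm (C := C) (Eventually.of_forall fun x th => by
    rw [abs_mul]
    exact (mul_le_mul (ind_le B x) (hC th) (abs_nonneg _) zero_le_one).trans_eq (one_mul C))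
  have l : ∫ th, F th ∂(obs (μ[|B]) t)
      = ∫ x, ∫ z, F (t • x + Real.sqrt t • z) ∂gam n ∂(μ[|B]) := by
    unfold obs
    rw [integral_map hθ.aemeasurable hF.aestronglyMeasurable, integral_prod]
    exact Integrable.of_bound (hF.comp hθ).aestronglyMeasurable C
      (ae_of_all _ fun p => by simpa using hC _)
  rw [l, h.integral_cond]
  have r : ∀ th, dens μ B t th * F th
      = (μ.real B)⁻¹ * ex μ t th (fun x => B.indicator (fun _ => (1:ℝ)) x * F th) := fun th => by
    simp only [mul_comm _ (F th), M2.ex_const_mul, dens]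
    ring
  simp only [r]
  rw [integral_const_mul, ← he, integral_prod _ hi]
  congr 1
  refine integral_congr_ae (ae_of_all _ fun x => ?_)
  simp only [rin, integral_const_mul]

lemma Env.integral_dens (h : Env μ B) {t : ℝ} (ht : 0 < t) :
    ∫ th, dens μ B t th ∂(obs μ t) = 1 := by
  haveI := h.prob
  haveI := h.cond_prob
  haveI : IsProbabilityMeasure (obs (μ[|B]) t) := Imp.prob_obs
  have := h.integral_obs_cond ht (F := fun _ => (1:ℝ)) measurable_const (C := 1) (by simp)
  simpa using this.symm

lemma Env.log_inv_nonneg (h : Env μ B) : 0 ≤ Real.log (μ.real B)⁻¹ := by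
  haveI := h.prob
  exact Real.log_nonneg ((one_le_inv₀ h.pos).2 measureReal_le_one)

lemma Env.ent_mem (h : Env μ B) (t : ℝ) (th : Rn n) :
    dens μ B t th - 1 ≤ ent μ B t th ∧ ent μ B t th ≤ dens μ B t th * Real.log (μ.real B)⁻¹ := by
  have hg := h.dens_pos t th
  refine ⟨?_, mul_le_mul_of_nonneg_left (Real.log_le_log hg (h.dens_le t th)) hg.le⟩
  have h1 := mul_le_mul_of_nonneg_left (Real.one_sub_inv_le_log_of_pos hg) hg.le
  rw [mul_sub, mul_one, mul_inv_cancel₀ hg.ne'] at h1
  exact h1

lemma Env.measurable_ent (h : Env μ B) (t : ℝ) : Measurable fun th => ent μ B t th :=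
  (h.measurable_dens t).mul (h.measurable_dens t).log

lemma Env.abs_ent (h : Env μ B) (t : ℝ) (th : Rn n) :
    |ent μ B t th| ≤ 1 + (μ.real B)⁻¹ * Real.log (μ.real B)⁻¹ := by
  obtain ⟨h1, h2⟩ := h.ent_mem t th
  have h3 := h.log_inv_nonneg
  have h4 := mul_le_mul_of_nonneg_right (h.dens_le t th) h3
  have h5 := h.dens_pos t th
  have h6 : 0 ≤ (μ.real B)⁻¹ * Real.log (μ.real B)⁻¹ := mul_nonneg (inv_pos.2 h.pos).le h3
  rw [abs_le]
  constructor <;> linarith

lemma Env.ent_bounds (h : Env μ B) {t : ℝ} (ht : 0 < t) :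
    0 ≤ ∫ th, ent μ B t th ∂(obs μ t) ∧
      ∫ th, ent μ B t th ∂(obs μ t) ≤ Real.log (μ.real B)⁻¹ := by
  haveI := h.prob
  haveI : IsProbabilityMeasure (obs μ t) := Imp.prob_obs
  have hi := h.integrable_obs (t := t) (h.measurable_ent t) (h.abs_ent t)
  have hd := h.integrable_obs (t := t) (h.measurable_dens t) (h.abs_dens t)
  constructor
  · refine le_trans ?_ (integral_mono (hd.sub (integrable_const 1)) hi fun th => (h.ent_mem t th).1)
    simp only [Pi.sub_apply]
    rw [integral_sub hd (integrable_const 1), h.integral_dens ht]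
    simp
  · refine (integral_mono hi (hd.mul_const _) fun th => (h.ent_mem t th).2).trans_eq ?_
    rw [integral_mul_const, h.integral_dens ht, one_mul]

/-- Young's inequality for `y log y`. -/
lemma young {y : ℝ} (hy : 0 < y) (w : ℝ) : y * w - Real.exp (w - 1) ≤ y * Real.log y := by
  have h1 := Real.add_one_le_exp (w - 1 - Real.log y)
  rw [Real.exp_sub, Real.exp_log hy, le_div_iff₀ hy] at h1
  linarith

/-- The entropy gained in one step. -/
lemma Env.energy_step (h : Env μ B) {t s : ℝ} (ht : 0 < t) (hs : 0 < s) (hst : s ≤ t) (th : Rn n) :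
    ent μ B t th + s / 6 * (dens μ B t th * gap μ B t th)
      ≤ step μ t s th (ent μ B (t + s)) := by
  haveI := h.prob
  haveI := h.cond_prob
  set g := dens μ B t th
  have hg : 0 < g := h.dens_pos t th
  set u : Rn n := mean (μ[|B]) t th - mean μ t th with hu
  set v : Rn n := (3 : ℝ)⁻¹ • u with hv
  clear_value v
  set a : Rn n := mean μ t th
  set M₀ : ℝ := 3 / 2 * s * ‖v‖ ^ 2 with hM₀
  set c : ℝ := Real.log g + 1 - M₀ with hc
  set Φ : Rn n → ℝ := fun q => ⟪v, q - th - s • a⟫ with hΦ
  have hΦc : Continuous Φ := by fun_prop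
  set Φk : ℕ → Rn n → ℝ := fun k q => max (-(k : ℝ)) (min (k : ℝ) (Φ q)) with hΦk
  have hΦkc : ∀ k, Continuous (Φk k) := fun k =>
    continuous_const.max (continuous_const.min hΦc)
  have hΦkb : ∀ k q, |Φk k q| ≤ k := fun k q => abs_le.2
    ⟨le_max_left _ _, max_le (by linarith [(Nat.cast_nonneg k : (0:ℝ) ≤ k)]) (min_le_left _ _)⟩
  have hΦka : ∀ k q, |Φk k q| ≤ |Φ q| := fun k q => by
    have hk : (0:ℝ) ≤ k := Nat.cast_nonneg k
    have := abs_nonneg (Φ q)
    have := le_abs_self (Φ q)
    have := neg_abs_le (Φ q)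
    simp only [hΦk]
    rw [abs_le]
    exact ⟨le_max_of_le_right (le_min (by linarith) (by linarith)),
      max_le (by linarith) ((min_le_right _ _).trans (by linarith))⟩
  have hlim : ∀ q, Tendsto (fun k => Φk k q) atTop (𝓝 (Φ q)) := fun q => by
    refine tendsto_const_nhds.congr' ?_
    obtain ⟨k₀, hk₀⟩ := exists_nat_ge |Φ q|
    filter_upwards [eventually_ge_atTop k₀] with k hk
    have hq := abs_le.1 (hk₀.trans (Nat.cast_le.2 hk))
    simp [hΦk, hq.1, hq.2]
  -- Young's inequality, integrated
  have key : ∀ k : ℕ, g * (step (μ[|B]) t s th (fun q => Φk k q) + c)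
      - step μ t s th (fun q => Real.exp (Φk k q + c - 1)) ≤ step μ t s th (ent μ B (t + s)) := by
    intro k
    have hm1 : Measurable fun q => Φk k q + c := (hΦkc k).measurable.add_const c
    have hb1 : ∀ q, |Φk k q + c| ≤ k + |c| := fun q =>
      (abs_add_le _ _).trans (add_le_add (hΦkb k q) le_rfl)
    have hm2 : Measurable fun q => Real.exp (Φk k q + c - 1) := (hm1.sub_const 1).exp
    have hb2 : ∀ q, |Real.exp (Φk k q + c - 1)| ≤ Real.exp (k + |c|) := fun q => by
      rw [Real.abs_exp, Real.exp_le_exp]
      linarith [(abs_le.1 (hb1 q)).2]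
    set L : Rn n → ℝ := fun q => (Φk k q + c) * dens μ B (t + s) q - Real.exp (Φk k q + c - 1)
      with hL
    have hLm : Measurable L := (hm1.mul (h.measurable_dens _)).sub hm2
    have hLb : ∀ q, |L q| ≤ (k + |c|) * (μ.real B)⁻¹ + Real.exp (k + |c|) := fun q =>
      (abs_sub _ _).trans (add_le_add (by
        rw [abs_mul]
        exact mul_le_mul (hb1 q) (h.abs_dens _ q) (abs_nonneg _) (by positivity)) (hb2 q))
    have hsplit : step μ t s th L
        = g * step (μ[|B]) t s th (fun q => Φk k q + c)
          - step μ t s th (fun q => Real.exp (Φk k q + c - 1)) := by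
      have hA : Measurable fun q => (Φk k q + c) * dens μ B (t + s) q :=
        hm1.mul (h.measurable_dens _)
      have hAb : ∀ q, |(Φk k q + c) * dens μ B (t + s) q| ≤ (k + |c|) * (μ.real B)⁻¹ := fun q => by
        rw [abs_mul]
        exact mul_le_mul (hb1 q) (h.abs_dens _ q) (abs_nonneg _) (by positivity)
      rw [← h.dens_step t hs th hm1 hb1]
      haveI := tilt_prob (m := μ) h.bdd t th
      simp only [step_eq, ← Imp.integral_tilt, hL]
      rw [← integral_sub]
      · refine integral_congr_ae (ae_of_all _ fun x => ?_)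
        simp only [sm1]
        rw [integral_sub]
        · exact Integrable.of_bound (hA.comp (by fun_prop)).aestronglyMeasurable _
            (ae_of_all _ fun z => by rw [Real.norm_eq_abs]; exact hAb _)
        · exact Integrable.of_bound (hm2.comp (by fun_prop)).aestronglyMeasurable _
            (ae_of_all _ fun z => by rw [Real.norm_eq_abs]; exact hb2 _)
      · exact Integrable.of_bound ((measurable_sm1 hA s).comp
          (measurable_const.prodMk measurable_id)).aestronglyMeasurable _
          (ae_of_all _ fun x => by rw [Real.norm_eq_abs]; exact abs_sm1 hAb s th x)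
      · exact Integrable.of_bound ((measurable_sm1 hm2 s).comp
          (measurable_const.prodMk measurable_id)).aestronglyMeasurable _
          (ae_of_all _ fun x => by rw [Real.norm_eq_abs]; exact abs_sm1 hb2 s th x)
    have hadd : step (μ[|B]) t s th (fun q => Φk k q + c)
        = step (μ[|B]) t s th (fun q => Φk k q) + c := by
      haveI := tilt_prob (m := μ[|B]) h.cond_bdd t th
      simp only [step_eq, ← Imp.integral_tilt, sm1]
      have hi1 : ∀ x, Integrable (fun z => Φk k (th + s • x + Real.sqrt s • z)) (gam n) := fun x =>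
        Integrable.of_bound ((hΦkc k).measurable.comp (by fun_prop)).aestronglyMeasurable k
          (ae_of_all _ fun z => by rw [Real.norm_eq_abs]; exact hΦkb k _)
      simp only [integral_add (hi1 _) (integrable_const c), integral_const, probReal_univ, one_smul]
      rw [integral_add ?_ (integrable_const c), integral_const, probReal_univ, one_smul]
      exact Integrable.of_bound ((measurable_sm1 (hΦkc k).measurable s).comp
        (measurable_const.prodMk measurable_id)).aestronglyMeasurable k
        (ae_of_all _ fun x => by rw [Real.norm_eq_abs]; exact abs_sm1 (hΦkb k) s th x)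
    rw [← hadd, ← hsplit]
    haveI := tilt_prob (m := μ) h.bdd t th
    simp only [step_eq, ← Imp.integral_tilt]
    refine integral_mono
      (Integrable.of_bound ((measurable_sm1 hLm s).comp
        (measurable_const.prodMk measurable_id)).aestronglyMeasurable _
        (ae_of_all _ fun x => by rw [Real.norm_eq_abs]; exact abs_sm1 hLb s th x))
      (Integrable.of_bound ((measurable_sm1 (h.measurable_ent _) s).comp
        (measurable_const.prodMk measurable_id)).aestronglyMeasurable _
        (ae_of_all _ fun x => by rw [Real.norm_eq_abs]; exact abs_sm1 (h.abs_ent _) s th x))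
      fun x => integral_mono
        (Integrable.of_bound (hLm.comp (by fun_prop)).aestronglyMeasurable _
          (ae_of_all _ fun z => by rw [Real.norm_eq_abs]; exact hLb _))
        (Integrable.of_bound ((h.measurable_ent _).comp (by fun_prop)).aestronglyMeasurable _
          (ae_of_all _ fun z => by rw [Real.norm_eq_abs]; exact h.abs_ent _ _))
        fun z => ?_
    simp only [hL, ent, mul_comm _ (dens μ B (t + s) _)]
    exact young (h.dens_pos _ _) _
  -- the two limits
  have hlin : ∀ x z : Rn n, Φ (th + s • x + Real.sqrt s • z)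
      = s * (⟪v, x⟫ - ⟪v, a⟫) + Real.sqrt s * ⟪v, z⟫ := fun x z => by
    simp only [hΦ]
    rw [show th + s • x + Real.sqrt s • z - th - s • a = s • (x - a) + Real.sqrt s • z by
      rw [smul_sub]; abel, inner_add_right, real_inner_smul_right, real_inner_smul_right,
      inner_sub_right]
  have hzi : Integrable (fun z : Rn n => ⟪v, z⟫) (gam n) :=
    IsGaussian.integrable_id.const_inner v
  have hz0 : ∫ z : Rn n, ⟪v, z⟫ ∂gam n = 0 := by
    refine (integral_inner IsGaussian.integrable_id v).trans ?_
    simp [integral_id_stdGaussian]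
  have hνlim : Tendsto (fun k => step (μ[|B]) t s th (fun q => Φk k q)) atTop
      (𝓝 (s * ⟪v, u⟫)) := by
    haveI := tilt_prob (m := μ[|B]) h.cond_bdd t th
    obtain ⟨R, hR⟩ := tilt_bdd (m := μ[|B]) h.cond_bdd t th
    have e : s * ⟪v, u⟫ = ∫ x, ∫ z, Φ (th + s • x + Real.sqrt s • z) ∂gam n
        ∂tilt (μ[|B]) t th := by
      have hx : Integrable (fun x : Rn n => ⟪v, x⟫) (tilt (μ[|B]) t th) :=
        Integrable.of_bound (by fun_prop : Continuous fun x : Rn n => ⟪v, x⟫).aestronglyMeasurable
          (‖v‖ * R) (hR.mono fun x hx => by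
            rw [Real.norm_eq_abs]
            exact (abs_real_inner_le_norm v x).trans (mul_le_mul_of_nonneg_left hx (norm_nonneg v)))
      have hin : ∀ x, ∫ z, Φ (th + s • x + Real.sqrt s • z) ∂gam n
          = s * (⟪v, x⟫ - ⟪v, a⟫) := fun x => by
        simp only [hlin]
        rw [integral_add (integrable_const _) (hzi.const_mul _), integral_const, probReal_univ,
          one_smul, integral_const_mul, hz0, mul_zero, add_zero]
      simp only [hin]
      rw [integral_const_mul, integral_sub hx (integrable_const _), Imp.integral_tilt,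
        ex_inner h.cond_bdd, integral_const, probReal_univ, one_smul, hu, inner_sub_right]
    rw [e]
    simp only [step_eq, ← Imp.integral_tilt]
    refine tendsto_integral_of_dominated_convergence
      (fun x => ∫ z, |Φ (th + s • x + Real.sqrt s • z)| ∂gam n)
      (fun k => ((measurable_sm1 (hΦkc k).measurable s).comp
        (measurable_const.prodMk measurable_id)).aestronglyMeasurable) ?_
      (fun k => ae_of_all _ fun x => ?_) (ae_of_all _ fun x => ?_)
    · refine Integrable.of_bound ((measurable_sm1 (F := fun q => |Φ q|) hΦc.abs.measurable s).comp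
        (measurable_const.prodMk measurable_id)).aestronglyMeasurable
        (|s| * (‖v‖ * R + |⟪v, a⟫|) + ∫ z, |Real.sqrt s * ⟪v, z⟫| ∂gam n)
        (hR.mono fun x hx => ?_)
      rw [Real.norm_eq_abs, abs_of_nonneg (integral_nonneg fun z => abs_nonneg _)]
      have hle : ∀ z, |Φ (th + s • x + Real.sqrt s • z)|
          ≤ |s| * (‖v‖ * R + |⟪v, a⟫|) + |Real.sqrt s * ⟪v, z⟫| := fun z => by
        rw [hlin]
        refine (abs_add_le _ _).trans (add_le_add ?_ le_rfl)
        rw [abs_mul]
        exact mul_le_mul_of_nonneg_left ((abs_sub _ _).trans (add_le_add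
          ((abs_real_inner_le_norm v x).trans (mul_le_mul_of_nonneg_left hx (norm_nonneg v)))
          le_rfl)) (abs_nonneg s)
      refine (integral_mono_of_nonneg (ae_of_all _ fun z => abs_nonneg _)
        ((integrable_const _).add (hzi.const_mul _).abs) (ae_of_all _ hle)).trans_eq ?_
      simp only [Pi.add_apply]
      rw [integral_add (integrable_const _) (hzi.const_mul _).abs]
      simp
    · rw [Real.norm_eq_abs]
      refine (abs_integral_le_integral_abs).trans (integral_mono_of_nonneg
        (ae_of_all _ fun z => abs_nonneg _) ?_ (ae_of_all _ fun z => hΦka k _))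
      simp only [hlin]
      exact ((integrable_const _).add (hzi.const_mul _)).abs
    · refine tendsto_integral_of_dominated_convergence
        (fun z => |Φ (th + s • x + Real.sqrt s • z)|)
        (fun k => ((hΦkc k).measurable.comp (by fun_prop)).aestronglyMeasurable) ?_
        (fun k => ae_of_all _ fun z => by rw [Real.norm_eq_abs]; exact hΦka k _)
        (ae_of_all _ fun z => hlim _)
      simp only [hlin]
      exact ((integrable_const _).add (hzi.const_mul _)).abs
  have hμbd : ∀ k : ℕ, step μ t s th (fun q => Real.exp (Φk k q + c - 1))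
      ≤ g + Real.exp (c - 1 - k) := by
    intro k
    haveI := tilt_prob (m := μ) h.bdd t th
    simp only [step_eq, ← Imp.integral_tilt, sm1]
    set ζ := Real.exp (c - 1 - k)
    have hexpi : ∀ x, Integrable (fun z => Real.exp (Φ (th + s • x + Real.sqrt s • z) + c - 1))
        (gam n) ∧ ∫ z, Real.exp (Φ (th + s • x + Real.sqrt s • z) + c - 1) ∂gam n
          = Real.exp (c - 1 + s * ‖v‖ ^ 2 / 2) * Real.exp (⟪s • v, x⟫ - ⟪s • v, a⟫) := by
      intro x
      obtain ⟨hi, hv'⟩ := mgf_inner_gam (Real.sqrt s • v)
      have e : ∀ z, Real.exp (Φ (th + s • x + Real.sqrt s • z) + c - 1)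
          = Real.exp (c - 1 + s * (⟪v, x⟫ - ⟪v, a⟫)) * Real.exp ⟪Real.sqrt s • v, z⟫ := fun z => by
        rw [hlin, ← Real.exp_add, real_inner_smul_left]
        ring_nf
      simp only [e]
      refine ⟨hi.const_mul _, ?_⟩
      rw [integral_const_mul, hv', ← Real.exp_add, ← Real.exp_add, norm_smul, mul_pow,
        Real.norm_eq_abs, sq_abs, Real.sq_sqrt hs.le, real_inner_smul_left, real_inner_smul_left]
      ring_nf
    have hpt : ∀ x z, Real.exp (Φk k (th + s • x + Real.sqrt s • z) + c - 1)
        ≤ Real.exp (Φ (th + s • x + Real.sqrt s • z) + c - 1) + ζ := fun x z => by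
      rcases le_total (-(k:ℝ)) (min (k:ℝ) (Φ (th + s • x + Real.sqrt s • z))) with h1 | h1
      · refine le_add_of_le_of_nonneg (Real.exp_le_exp.2 ?_) (Real.exp_pos _).le
        simp only [hΦk, max_eq_right h1]
        linarith [min_le_right (k:ℝ) (Φ (th + s • x + Real.sqrt s • z))]
      · refine le_add_of_nonneg_of_le (Real.exp_pos _).le (le_of_eq ?_)
        simp only [hΦk, max_eq_left h1, ζ]
        ring_nf
    have hmgf := lin_mgf (m := tilt μ t th) (tilt_bdd (m := μ) h.bdd t th) ht
      (tilt_slc h.bdd h.slc t th) (s • v)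
    rw [show (∫ y, ⟪s • v, y⟫ ∂tilt μ t th) = ⟪s • v, a⟫ from
      (Imp.integral_tilt t th _).trans (ex_inner h.bdd t th _)] at hmgf
    obtain ⟨R, hR⟩ := tilt_bdd (m := μ) h.bdd t th
    have hxi : Integrable (fun x => Real.exp (⟪s • v, x⟫ - ⟪s • v, a⟫)) (tilt μ t th) :=
      Integrable.of_bound (by fun_prop : Continuous fun x : Rn n =>
        Real.exp (⟪s • v, x⟫ - ⟪s • v, a⟫)).aestronglyMeasurable
        (Real.exp (‖s • v‖ * R - ⟪s • v, a⟫)) (hR.mono fun x hx => by
          rw [Real.norm_eq_abs, Real.abs_exp, Real.exp_le_exp]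
          have := (real_inner_le_norm (s • v) x).trans (mul_le_mul_of_nonneg_left hx (norm_nonneg _))
          linarith)
    calc ∫ x, ∫ z, Real.exp (Φk k (th + s • x + Real.sqrt s • z) + c - 1) ∂gam n ∂tilt μ t th
        ≤ ∫ x, (Real.exp (c - 1 + s * ‖v‖ ^ 2 / 2) * Real.exp (⟪s • v, x⟫ - ⟪s • v, a⟫) + ζ)
            ∂tilt μ t th := by
          refine integral_mono_of_nonneg (ae_of_all _ fun x => integral_nonneg fun z =>
            (Real.exp_pos _).le) ((hxi.const_mul _).add (integrable_const _)) (ae_of_all _ fun x => ?_)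
          refine (integral_mono_of_nonneg (ae_of_all _ fun z => (Real.exp_pos _).le)
            ((hexpi x).1.add (integrable_const ζ)) (ae_of_all _ (hpt x))).trans_eq ?_
          simp only [Pi.add_apply]
          rw [integral_add (hexpi x).1 (integrable_const _), (hexpi x).2]
          simp
      _ ≤ g + ζ := by
          rw [integral_add (hxi.const_mul _) (integrable_const _), integral_const_mul]
          simp only [integral_const, probReal_univ, one_smul]
          refine add_le_add ((mul_le_mul_of_nonneg_left hmgf (Real.exp_pos _).le).trans ?_) le_rfl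
          rw [← Real.exp_add]
          conv_rhs => rw [← Real.exp_log hg]
          refine Real.exp_le_exp.2 ?_
          have h1 : ‖s • v‖ ^ 2 / t ≤ s * ‖v‖ ^ 2 := by
            rw [norm_smul, mul_pow, Real.norm_eq_abs, sq_abs, div_le_iff₀ ht]
            have := mul_le_mul_of_nonneg_left hst (mul_nonneg hs.le (sq_nonneg ‖v‖))
            linarith
          rw [hc, hM₀]
          linarith
  have hfin : g * (s * ⟪v, u⟫ + c) - g ≤ step μ t s th (ent μ B (t + s)) := by
    have hz : Tendsto (fun k : ℕ => Real.exp (c - 1 - k)) atTop (𝓝 0) :=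
      Real.tendsto_exp_atBot.comp (tendsto_atBot_add_const_left _ (c - 1)
        (tendsto_neg_atTop_atBot.comp tendsto_natCast_atTop_atTop))
    have h2 := ((hνlim.add_const c).const_mul g).sub (hz.const_add g)
    simp only [add_zero] at h2
    exact le_of_tendsto h2 (Eventually.of_forall fun k => le_trans
      (sub_le_sub_left (hμbd k) _) (key k))
  refine le_trans (le_of_eq ?_) hfin
  rw [ent, gap, ← hu, hc, hM₀, hv, norm_smul, real_inner_smul_left, real_inner_self_eq_norm_sq,
    mul_pow, Real.norm_eq_abs, sq_abs]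
  ring

end Vale.Agent.P245.Poly.Cpl
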